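import Vale.Agent.P214.BTR.Trans
import Vale.Agent.P214.BLOC.Loc

/-!
# P214, Target B, block B-TRANS: locality, and two centres of the same varifold

* `fmeas_restrict_eq`, `HF_congr`, ... : the functionals at `(z, t)` only see the measure near the
  cylinder of radius `t` about `z`;
* `two_centres` : the dilated local measures at two points `x, z` of the same varifold agree, after
  translation, on the ball of radius `l r₁ / 2`; the fields of planes are translates.
-/

open Set Filter Topology MeasureTheory Metric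
open scoped RealInnerProductSpace ContDiff ENNReal

set_option linter.all false

namespace Vale.Agent.P214.BTR

open FV ODE FM BCS SCALE

variable {E : Type*} [NormedAddCommGroup E] [InnerProductSpace ℝ E] [FiniteDimensional ℝ E]
  [MeasurableSpace E] [BorelSpace E]

variable {T : Submodule ℝ E} {w : E → E} {ε κ h₁ : ℝ} {c z : E}
variable {m Q : ℕ} {G : Set E} {h : ℝ} {ν ν₁ ν₂ : Measure E} {P : E → E →L[ℝ] E}
  {k k' K ψ : ℝ → ℝ} {t : ℝ}

/-- locality of the measure in Fermi coordinates -/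
lemma fmeas_restrict_eq (H : Adm T w ε κ h₁) {B S : Set E} (hB : MeasurableSet B)
    (hS : MeasurableSet S) (hν : ν₁.restrict B = ν₂.restrict B)
    (h1 : ∀ᵐ Y ∂(fmeas T w h₁ ν₁), Y ∈ S → Psi T w h₁ Y ∈ B)
    (h2 : ∀ᵐ Y ∂(fmeas T w h₁ ν₂), Y ∈ S → Psi T w h₁ Y ∈ B) :
    (fmeas T w h₁ ν₁).restrict S = (fmeas T w h₁ ν₂).restrict S := by
  have key : ∀ ν : Measure E, (∀ᵐ Y ∂(fmeas T w h₁ ν), Y ∈ S → Psi T w h₁ Y ∈ B) →
      (fmeas T w h₁ ν).restrict S =
        ((ν.restrict B).restrict (PsiInv T w h₁ ⁻¹' S)).map (PsiInv T w h₁) := by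
    intro ν hν
    have e1 : (fmeas T w h₁ ν).restrict S = (fmeas T w h₁ ν).restrict (S ∩ Psi T w h₁ ⁻¹' B) := by
      refine Measure.restrict_congr_set ?_
      filter_upwards [hν] with Y hY
      exact propext ⟨fun h => ⟨h, hY h⟩, fun h => h.1⟩
    rw [e1]
    unfold fmeas
    have hm : MeasurableSet (S ∩ Psi T w h₁ ⁻¹' B) := hS.inter (H.measurable_Psi hB)
    rw [Measure.restrict_map H.aem hm, Measure.restrict_restrict (H.aem hS)]
    congr 2
    ext y
    simp only [mem_preimage, mem_inter_iff, H.Psi_PsiInv]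
  rw [key ν₁ h1, key ν₂ h2, hν]

/-- the kernel integrals only see the open cylinder -/
lemma kI_eq_restrict (z : E) (ν : Measure E) (hw : Ref T w ε κ) (hz : ∀ s, 1 ≤ s → ψ s = 0)
    (f : E → ℝ) (ht : 0 < t) :
    kI T w z (ν.restrict {Y | aX T w z Y < t ^ 2}) ψ f t = kI T w z ν ψ f t := by
  unfold kI
  refine setIntegral_eq_integral_of_forall_compl_eq_zero fun Y hY => ?_
  have h1 : 1 ≤ aX T w z Y / t ^ 2 := by
    rw [one_le_div (by positivity)]
    exact not_lt.1 hY
  rw [hz _ h1, zero_mul]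

section functionals

variable (H : Adm T w ε κ h₁) (hk : Kern k k' K) (ht : 0 < t)
  (hν : ν₁.restrict {Y | aX T w z Y < t ^ 2} = ν₂.restrict {Y | aX T w z Y < t ^ 2})

include H hk ht hν

theorem HF_congr : HF m T w z k ν₁ t = HF m T w z k ν₂ t := by
  unfold HF
  rw [← kI_eq_restrict z ν₁ H.ref hk.pk.zero _ ht, hν, kI_eq_restrict z ν₂ H.ref hk.pk.zero _ ht]

theorem bF_congr : bF m T w h₁ z k P ν₁ t = bF m T w h₁ z k P ν₂ t := by
  unfold bF
  rw [← kI_eq_restrict z ν₁ H.ref hk.pk.zero _ ht, hν, kI_eq_restrict z ν₂ H.ref hk.pk.zero _ ht]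

theorem jF_congr : jF m T w h₁ z K P ν₁ t = jF m T w h₁ z K P ν₂ t := by
  unfold jF
  rw [← kI_eq_restrict z ν₁ H.ref hk.pK.zero _ ht, hν, kI_eq_restrict z ν₂ H.ref hk.pK.zero _ ht]

theorem gF_congr : gF m T w z K P ν₁ t = gF m T w z K P ν₂ t := by
  unfold gF
  rw [← kI_eq_restrict z ν₁ H.ref hk.pK.zero _ ht, hν, kI_eq_restrict z ν₂ H.ref hk.pK.zero _ ht]

theorem MF_congr : MF m T w z K ν₁ t = MF m T w z K ν₂ t := by
  unfold MF
  rw [← kI_eq_restrict z ν₁ H.ref hk.pK.zero _ ht, hν, kI_eq_restrict z ν₂ H.ref hk.pK.zero _ ht]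

theorem aF_congr : aF m Q T w z K ν₁ t = aF m Q T w z K ν₂ t := by
  unfold aF
  rw [MF_congr H hk ht hν]

theorem pinF_congr (N : ℝ) : pinF m T w h₁ z k K P ν₁ N t = pinF m T w h₁ z k K P ν₂ N t := by
  unfold pinF
  rw [bF_congr H hk ht hν, jF_congr H hk ht hν, HF_congr H hk ht hν]

end functionals

/-! ### two centres of the same varifold -/

variable {U : Set E} {V : IntegralVarifold m U} {T₁ T₂ : Submodule ℝ E} {x : E} {r₁ l : ℝ}

/-- **the local measures at two points agree near the second one** -/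
theorem two_centres (hr₁ : 0 < r₁) (hl : 0 < l) (hxz : ‖z - x‖ ≤ r₁ / 2) :
    ((dilM m 0 l (BLOC.cylT V T₁ x r₁)).map fun y => y - l • (z - x)).restrict
        (ball 0 (l * (r₁ / 2))) =
      (dilM m 0 l (BLOC.cylT V T₂ z r₁)).restrict (ball 0 (l * (r₁ / 2))) := by
  ext A hA
  have hmb : MeasurableSet (ball (0:E) (l * (r₁ / 2))) := measurableSet_ball
  rw [Measure.restrict_apply hA, Measure.restrict_apply hA, (embp _).map_apply, dilM_apply m hl,
    dilM_apply m hl]
  congr 1
  have key : ∀ (T : Submodule ℝ E) (a : E) (b : E), ‖b‖ ≤ r₁ / 2 → a = z - b →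
      BLOC.cylT V T a r₁ (dil (0:E) l ⁻¹' ((fun y => y - l • b) ⁻¹' (A ∩ ball 0 (l * (r₁ / 2))))) =
        V.weight ((fun y => l • (y - z)) ⁻¹' (A ∩ ball 0 (l * (r₁ / 2)))) := by
    intro T a b hb hab
    have hmm : MeasurableSet (A ∩ ball (0:E) (l * (r₁ / 2))) := hA.inter hmb
    have hm2 : MeasurableSet (dil (0:E) l ⁻¹' ((fun y => y - l • b) ⁻¹'
        (A ∩ ball 0 (l * (r₁ / 2))))) := by
      refine (continuous_dil (0:E) l).measurable ?_
      exact (by fun_prop : Measurable fun y : E => y - l • b) hmm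
    unfold BLOC.cylT
    rw [Measure.restrict_apply hm2, (SUB.emb a).map_apply]
    congr 1
    ext y
    simp only [mem_preimage, mem_inter_iff]
    have e1 : dil (0:E) l (y - a) - l • b = l • (y - z) := by
      rw [STR.dil_zero, hab, ← smul_sub]
      congr 1
      abel
    rw [e1]
    constructor
    · exact fun h => h.1
    · intro h
      refine ⟨h, ?_⟩
      have h2 := h.2
      rw [mem_ball_zero_iff, norm_smul, Real.norm_eq_abs, abs_of_pos hl] at h2
      have h3 : ‖y - z‖ < r₁ / 2 := lt_of_mul_lt_mul_left h2 hl.le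
      have h4 : ‖y - a‖ < r₁ := by
        calc ‖y - a‖ = ‖(y - z) + b‖ := by rw [hab]; congr 1; abel
          _ ≤ ‖y - z‖ + ‖b‖ := norm_add_le _ _
          _ < r₁ := by linarith
      rw [SUB.mem_reg]
      exact ⟨(FV.norm_star_le T _).trans_lt h4, ((FV.norm_co_le T _).trans h4.le)⟩
  have k1 := key T₁ x (z - x) hxz (by abel)
  have k2 := key T₂ z 0 (by rw [norm_zero]; positivity) (by abel)
  rw [smul_zero] at k2
  simp only [sub_zero, preimage_id'] at k2
  rw [k1]
  exact k2.symm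

/-- the fields of planes at two points are translates -/
theorem trP_two (hl : 0 < l) (V : IntegralVarifold m U) (x z : E) :
    (fun y => dilP (0:E) l (SUB.trP V x) (y + l • (z - x))) = dilP (0:E) l (SUB.trP V z) := by
  funext y
  unfold dilP SUB.trP dilInv
  congr 2
  rw [sub_zero, sub_zero, smul_add, smul_smul, inv_mul_cancel₀ hl.ne', one_smul]
  abel

end Vale.Agent.P214.BTR
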