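import Vale.Agent.P214.BTR.Local

/-!
# P214, Target B, block B-TRANS: restriction to a ball and the second chart

* `cylF_restrict`, `HF_restr`, `gF_restr`, `pinF_restr`, ... : the cylinder structure and the
  functionals do not change if the measure is restricted to a set which contains the part of the
  measure over the cylinder;
* `cylF_second`, `pinF_second`, ... : the chart of the second centre `c` (reference `w'`, centre `0`)
  seen in the coordinates of the first one (reference `trw T' w' (-c)`, centre `c`);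
* `psi_mem`, `psi_mem'` : the inclusions in balls needed above.
-/

open Set Filter Topology MeasureTheory Metric
open scoped RealInnerProductSpace ContDiff ENNReal

set_option linter.all false

namespace Vale.Agent.P214.BTR

open FV ODE FM BCS SCALE

variable {E : Type*} [NormedAddCommGroup E] [InnerProductSpace ℝ E] [FiniteDimensional ℝ E]
  [MeasurableSpace E] [BorelSpace E]

variable {T : Submodule ℝ E} {w : E → E} {ε κ h₁ : ℝ} {c z : E}
variable {m Q : ℕ} {G B : Set E} {h : ℝ} {ν : Measure E} {P : E → E →L[ℝ] E}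
  {k k' K : ℝ → ℝ} {t : ℝ}

/-- the restricted measure in Fermi coordinates -/
lemma fmeas_restrict (H : Adm T w ε κ h₁) (hB : MeasurableSet B) (ν : Measure E) :
    fmeas T w h₁ (ν.restrict B) = (fmeas T w h₁ ν).restrict (Psi T w h₁ ⁻¹' B) := by
  unfold fmeas
  rw [Measure.restrict_map H.aem (H.measurable_Psi hB)]
  congr 2
  ext y
  simp only [mem_preimage, H.Psi_PsiInv]

/-- **(1) the cylinder structure of the restricted measure** -/
theorem cylF_restrict (H : Adm T w ε κ h₁)
    (hC : CylF m T w h₁ G h (fmeas T w h₁ ν) (fP T w h₁ P)) (hB : MeasurableSet B)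
    (hin : ∀ᵐ Y ∂(fmeas T w h₁ ν), T.starProjection Y ∈ G → Psi T w h₁ Y ∈ B) :
    CylF m T w h₁ G h (fmeas T w h₁ (ν.restrict B)) (fP T w h₁ P) := by
  have hfin := hC.fin
  rw [fmeas_restrict H hB]
  refine ⟨inferInstance, hC.meas.restrict, ae_restrict_of_ae hC.proj, hC.dimT, hC.isOpen,
    ae_restrict_of_ae hC.slab, hC.lt, ?_⟩
  intro Z hZ hZc
  rw [← hC.stat Z hZ hZc]
  have hBm : MeasurableSet (Psi T w h₁ ⁻¹' B) := H.measurable_Psi hB
  rw [← integral_indicator hBm]
  refine integral_congr_ae ?_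
  filter_upwards [hin] with Y hY
  by_cases hYB : Y ∈ Psi T w h₁ ⁻¹' B
  · rw [indicator_of_mem hYB]
  · rw [indicator_of_notMem hYB]
    have hYG : T.starProjection Y ∉ G := fun hG => hYB (hY hG)
    obtain ⟨K', hK', hK'G, h0⟩ := hZc
    have hU : ∀ᶠ y in 𝓝 Y, Z y = 0 := by
      have hcl : IsOpen {y : E | T.starProjection y ∉ K'} :=
        (hK'.isClosed.isOpen_compl).preimage T.starProjection.continuous
      filter_upwards [hcl.mem_nhds (fun hc => hYG (hK'G hc))] with y hy
      exact h0 y hy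
    have hfd : fderiv ℝ Z Y = 0 := by
      have h1 : Z =ᶠ[𝓝 Y] fun _ => (0:E) := hU
      rw [h1.fderiv_eq]
      exact fderiv_const_apply _
    rw [hfd, ContinuousLinearMap.zero_comp, ContinuousLinearMap.zero_comp]
    simp [tr]

/-- the base point of a point of the open cylinder -/
lemma mem_of_ballIn (hb : BallIn T G z t) (ht : 0 < t) {Y : E} (hY : aX T w z Y < t ^ 2) :
    T.starProjection Y ∈ G := by
  refine hb _ (T.starProjection_apply_mem Y) ?_
  have h1 : ‖bx T z Y‖ ^ 2 < t ^ 2 := hY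
  have h2 : ‖bx T z Y‖ < t := lt_of_pow_lt_pow_left₀ 2 ht.le h1
  rw [bx_eq] at h2
  exact h2.le

section restr

variable (H : Adm T w ε κ h₁) (hB : MeasurableSet B)
    (hin : ∀ᵐ Y ∂(fmeas T w h₁ ν), T.starProjection Y ∈ G → Psi T w h₁ Y ∈ B)
    (hb : BallIn T G z t) (ht : 0 < t)

include H hB hin hb ht

lemma fmeas_restr_eq :
    (fmeas T w h₁ (ν.restrict B)).restrict {Y | aX T w z Y < t ^ 2} =
      (fmeas T w h₁ ν).restrict {Y | aX T w z Y < t ^ 2} := by
  have hS : MeasurableSet {Y | aX T w z Y < t ^ 2} := by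
    have hc : Continuous fun Y : E => aX T w z Y := by
      unfold aX XX bx
      fun_prop
    exact (isOpen_lt hc continuous_const).measurableSet
  refine fmeas_restrict_eq H hB hS (by rw [Measure.restrict_restrict hB, inter_self]) ?_ ?_
  · have h1 : ∀ᵐ y ∂(ν.restrict B), y ∈ B := ae_restrict_mem hB
    filter_upwards [H.ae_fmeas h1] with Y hY _
    exact hY
  · filter_upwards [hin] with Y hY hYS
    exact hY (mem_of_ballIn hb ht hYS)

/-- **(2) the functionals of the restricted measure** -/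
theorem HF_restr (hk : Kern k k' K) :
    HF m T w z k (fmeas T w h₁ (ν.restrict B)) t = HF m T w z k (fmeas T w h₁ ν) t :=
  HF_congr H hk ht (fmeas_restr_eq H hB hin hb ht)

theorem bF_restr (hk : Kern k k' K) : bF m T w h₁ z k P (fmeas T w h₁ (ν.restrict B)) t =
    bF m T w h₁ z k P (fmeas T w h₁ ν) t :=
  bF_congr H hk ht (fmeas_restr_eq H hB hin hb ht)

theorem jF_restr (hk : Kern k k' K) : jF m T w h₁ z K P (fmeas T w h₁ (ν.restrict B)) t =
    jF m T w h₁ z K P (fmeas T w h₁ ν) t :=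
  jF_congr H hk ht (fmeas_restr_eq H hB hin hb ht)

theorem gF_restr (hk : Kern k k' K) : gF m T w z K P (fmeas T w h₁ (ν.restrict B)) t =
    gF m T w z K P (fmeas T w h₁ ν) t :=
  gF_congr H hk ht (fmeas_restr_eq H hB hin hb ht)

theorem MF_restr (hk : Kern k k' K) : MF m T w z K (fmeas T w h₁ (ν.restrict B)) t =
    MF m T w z K (fmeas T w h₁ ν) t :=
  MF_congr H hk ht (fmeas_restr_eq H hB hin hb ht)

theorem aF_restr (hk : Kern k k' K) : aF m Q T w z K (fmeas T w h₁ (ν.restrict B)) t =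
    aF m Q T w z K (fmeas T w h₁ ν) t :=
  aF_congr H hk ht (fmeas_restr_eq H hB hin hb ht)

theorem pinF_restr (hk : Kern k k' K) (N : ℝ) :
    pinF m T w h₁ z k K P (fmeas T w h₁ (ν.restrict B)) N t =
      pinF m T w h₁ z k K P (fmeas T w h₁ ν) N t :=
  pinF_congr H hk ht (fmeas_restr_eq H hB hin hb ht) N

end restr

/-! ### the inclusions -/

/-- the Fermi map over a ball -/
lemma norm_psi_le (H : Adm T w ε κ h₁) {R h : ℝ} {Y : E} (h1 : ‖T.starProjection Y‖ ≤ R)
    (h2 : ‖w Y‖ ≤ R) (h3 : ‖co T Y‖ ≤ h) : ‖Psi T w h₁ Y‖ ≤ 2 * R + 2 * h := by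
  have e1 := H.ref.norm_star_Psi_sub_le' h₁ Y
  have hε : ε ≤ 1 := H.hε.trans (eps0_le.trans (by norm_num))
  have h0 : 0 ≤ ‖co T Y‖ := norm_nonneg _
  have e2 : ‖T.starProjection (Psi T w h₁ Y)‖ ≤ R + h := by
    calc ‖T.starProjection (Psi T w h₁ Y)‖
        = ‖(T.starProjection (Psi T w h₁ Y) - T.starProjection Y) + T.starProjection Y‖ := by
          rw [sub_add_cancel]
      _ ≤ ‖T.starProjection (Psi T w h₁ Y) - T.starProjection Y‖ + ‖T.starProjection Y‖ :=
          norm_add_le _ _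
      _ ≤ ε * ‖co T Y‖ + R := add_le_add e1 h1
      _ ≤ 1 * ‖co T Y‖ + R := by gcongr
      _ ≤ R + h := by linarith
  have e3 : ‖co T (Psi T w h₁ Y)‖ ≤ R + h := by
    rw [H.ref.co_Psi]
    exact (norm_add_le _ _).trans (by linarith)
  calc ‖Psi T w h₁ Y‖ = ‖T.starProjection (Psi T w h₁ Y) + co T (Psi T w h₁ Y)‖ := by
        rw [star_add_co]
    _ ≤ _ := norm_add_le _ _
    _ ≤ 2 * R + 2 * h := by linarith

/-- **(4) the inclusion in the ball `ball c (3/16)`** -/
lemma psi_mem (H : Adm T w ε κ h₁) {R ρ : ℝ} (hw : ∀ y, ‖T.starProjection y‖ < R → ‖w y‖ ≤ R)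
    (hs : ∀ᵐ Y ∂(fmeas T w h₁ ν), T.starProjection Y ∈ ball (0:E) R → ‖co T Y‖ ≤ h) (hh : h ≤ R)
    (hR : 4 * R + ‖c‖ < ρ) :
    ∀ᵐ Y ∂(fmeas T w h₁ ν), T.starProjection Y ∈ ball (0:E) R → Psi T w h₁ Y ∈ ball c ρ := by
  filter_upwards [hs] with Y hY hYR
  have h1 : ‖T.starProjection Y‖ < R := by simpa using hYR
  have h2 := norm_psi_le H h1.le (hw Y h1) ((hY hYR).trans hh)
  rw [mem_ball, dist_eq_norm]
  calc ‖Psi T w h₁ Y - c‖ ≤ ‖Psi T w h₁ Y‖ + ‖c‖ := norm_sub_le _ _
    _ < ρ := by linarith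

/-- the inclusion in the ball `ball 0 ρ` -/
lemma psi_mem' (H : Adm T w ε κ h₁) {R ρ : ℝ} (hw : ∀ y, ‖T.starProjection y‖ < R → ‖w y‖ ≤ R)
    (hs : ∀ᵐ Y ∂(fmeas T w h₁ ν), T.starProjection Y ∈ ball (0:E) R → ‖co T Y‖ ≤ h) (hh : h ≤ R)
    (hR : 4 * R < ρ) :
    ∀ᵐ Y ∂(fmeas T w h₁ ν), T.starProjection Y ∈ ball (0:E) R → Psi T w h₁ Y ∈ ball (0:E) ρ :=
  psi_mem H hw hs hh (by rwa [norm_zero, add_zero])

/-! ### the second chart -/

/-- translation of a restriction -/
lemma map_restrict_shift (ν : Measure E) (c : E) (ρ : ℝ) :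
    ((ν.map fun y => y + c).restrict (ball c ρ)) =
      ((ν.restrict (ball (0:E) ρ)).map fun y => y - -c) := by
  have h1 : (fun y : E => y + c) = fun y => y - -c := funext fun y => by abel
  rw [h1, Measure.restrict_map (embp (-c)).measurable measurableSet_ball]
  congr 2
  ext y
  simp only [mem_preimage, mem_ball, dist_eq_norm]
  rw [show y - -c - c = y - 0 by abel]

section second

variable {T' : Submodule ℝ E} {w' : E → E} {ε' κ' h₁' R h' ρ : ℝ} {ν' : Measure E}
  {P P' : E → E →L[ℝ] E}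

/-- the fields of planes -/
lemma plane_second (hP : (fun y => P (y + c)) = P') : (fun y => P' (y + -c)) = P := by
  subst hP
  funext y
  show P (y + -c + c) = P y
  rw [neg_add_cancel_right]

/-- the measure of the second chart in Fermi coordinates -/
lemma fmeas_second (H' : Adm T' w' ε' κ' h₁') (c : E) (ν' : Measure E) (ρ : ℝ) :
    fmeas T' (trw T' w' (-c)) h₁' ((ν'.map fun y => y + c).restrict (ball c ρ)) =
      (fmeas T' w' h₁' (ν'.restrict (ball (0:E) ρ))).map fun Y => Y - T'.starProjection (-c) := by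
  rw [map_restrict_shift, fmeas_shift H']

/-- the field of planes of the second chart in Fermi coordinates -/
lemma fP_second (H' : Adm T' w' ε' κ' h₁') (hP : (fun y => P (y + c)) = P') (Y : E) :
    fP T' (trw T' w' (-c)) h₁' P Y = fP T' w' h₁' P' (Y + T'.starProjection (-c)) := by
  have h1 := fP_shift (h₁ := h₁') H'.ref (-c) P' (Y + T'.starProjection (-c))
  rw [plane_second hP, add_sub_cancel_right] at h1
  exact h1

/-- **(3) the cylinder structure of the second chart** -/
theorem cylF_second (H' : Adm T' w' ε' κ' h₁') (hP : (fun y => P (y + c)) = P')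
    (hC' : CylF m T' w' h₁' (ball 0 R) h' (fmeas T' w' h₁' ν') (fP T' w' h₁' P'))
    (hin' : ∀ᵐ Y ∂(fmeas T' w' h₁' ν'), T'.starProjection Y ∈ ball (0:E) R →
      Psi T' w' h₁' Y ∈ ball (0:E) ρ) :
    CylF m T' (trw T' w' (-c)) h₁' (ball (T'.starProjection c) R) h'
      (fmeas T' (trw T' w' (-c)) h₁' ((ν'.map fun y => y + c).restrict (ball c ρ)))
      (fP T' (trw T' w' (-c)) h₁' P) := by
  have h1 := cylF_shift H'.ref (cylF_restrict H' hC' measurableSet_ball hin') (-c)
  have e1 : {x | x + T'.starProjection (-c) ∈ ball (0:E) R} = ball (T'.starProjection c) R := by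
    ext x
    rw [mem_setOf_eq, mem_ball, mem_ball, dist_eq_norm, dist_eq_norm, map_neg, sub_zero,
      ← sub_eq_add_neg]
  rw [e1] at h1
  rw [fmeas_second H']
  have e2 : fP T' (trw T' w' (-c)) h₁' P =
      fun Y => fP T' w' h₁' P' (Y + T'.starProjection (-c)) := funext fun Y => fP_second H' hP Y
  rw [e2]
  exact h1

variable (H' : Adm T' w' ε' κ' h₁') (hk : Kern k k' K)
    (hin' : ∀ᵐ Y ∂(fmeas T' w' h₁' ν'), T'.starProjection Y ∈ ball (0:E) R →
      Psi T' w' h₁' Y ∈ ball (0:E) ρ) (ht : 0 < t) (htR : t < R)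

include H' hk hin' ht htR

lemma ballIn_zero_aux : BallIn T' (ball (0:E) R) 0 t := by
  intro x hx hxt
  rw [map_zero, sub_zero] at hxt
  simpa using hxt.trans_lt htR

/-- **the pinching functional of the second chart** -/
theorem pinF_second (hP : (fun y => P (y + c)) = P') (N : ℝ) :
    pinF m T' (trw T' w' (-c)) h₁' c k K (fP T' (trw T' w' (-c)) h₁' P)
        (fmeas T' (trw T' w' (-c)) h₁' ((ν'.map fun y => y + c).restrict (ball c ρ))) N t =
      pinF m T' w' h₁' 0 k K (fP T' w' h₁' P') (fmeas T' w' h₁' ν') N t := by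
  have h1 := pinF_shift (m := m) H' 0 (-c) (ν'.restrict (ball (0:E) ρ)) P' k K N t
  rw [plane_second hP, zero_sub, neg_neg, ← map_restrict_shift] at h1
  rw [h1]
  exact pinF_restr (P := fP T' w' h₁' P') H' measurableSet_ball hin'
    (ballIn_zero_aux H' hk hin' ht htR) ht hk N

theorem HF_second :
    HF m T' (trw T' w' (-c)) c k
        (fmeas T' (trw T' w' (-c)) h₁' ((ν'.map fun y => y + c).restrict (ball c ρ))) t =
      HF m T' w' 0 k (fmeas T' w' h₁' ν') t := by
  have h1 := HF_shift (m := m) H' 0 (-c) (ν'.restrict (ball (0:E) ρ)) k t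
  rw [zero_sub, neg_neg, ← map_restrict_shift] at h1
  rw [h1]
  exact HF_restr H' measurableSet_ball hin' (ballIn_zero_aux H' hk hin' ht htR) ht hk

theorem gF_second (hP : (fun y => P (y + c)) = P') :
    gF m T' (trw T' w' (-c)) c K (fP T' (trw T' w' (-c)) h₁' P)
        (fmeas T' (trw T' w' (-c)) h₁' ((ν'.map fun y => y + c).restrict (ball c ρ))) t =
      gF m T' w' 0 K (fP T' w' h₁' P') (fmeas T' w' h₁' ν') t := by
  have h1 := gF_shift (m := m) H' 0 (-c) (ν'.restrict (ball (0:E) ρ)) P' K t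
  rw [plane_second hP, zero_sub, neg_neg, ← map_restrict_shift] at h1
  rw [h1]
  exact gF_restr (P := fP T' w' h₁' P') H' measurableSet_ball hin'
    (ballIn_zero_aux H' hk hin' ht htR) ht hk

end second

/-- admissibility and minimality of the second chart -/
theorem adm_second {T' : Submodule ℝ E} {w' : E → E} {ε' κ' h₁' : ℝ} (H' : Adm T' w' ε' κ' h₁')
    (c : E) : Adm T' (trw T' w' (-c)) ε' κ' h₁' := adm_trw H' (-c)

theorem minimal_second {T' : Submodule ℝ E} {w' : E → E} {ε' κ' R : ℝ} (hw' : Ref T' w' ε' κ')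
    (h : MinimalOver T' w' (ball 0 R)) (c : E) :
    MinimalOver T' (trw T' w' (-c)) (ball (T'.starProjection c) R) := by
  have h1 := minimal_trw hw' h (-c)
  have e1 : {x | x + T'.starProjection (-c) ∈ ball (0:E) R} = ball (T'.starProjection c) R := by
    ext x
    rw [mem_setOf_eq, mem_ball, mem_ball, dist_eq_norm, dist_eq_norm, map_neg, sub_zero,
      ← sub_eq_add_neg]
  rwa [e1] at h1

end Vale.Agent.P214.BTR
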