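import Vale.Agent.P214.BCS.Pin
import Vale.Agent.P214.SUB.A

/-!
# P214, Target B, block B-TRANS: translation invariance of the Fermi objects

`trw T w c Y = w (Y + c) - co T c` is the reference graph translated by `-c`.  All objects of
`(trw T w c, z - c)` at `Y - p c` are those of `(w, z)` at `Y`; the measures in Fermi coordinates are
translates of each other by `p c`; the functionals `HF, jF, bF, gF, MF, MSf, aF, pinF` are invariant.
-/

open Set Filter Topology MeasureTheory Metric
open scoped RealInnerProductSpace ContDiff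

set_option linter.all false

namespace Vale.Agent.P214.BTR

open FV ODE FM BCS

variable {E : Type*} [NormedAddCommGroup E] [InnerProductSpace ℝ E] [FiniteDimensional ℝ E]

/-- the translated reference -/
noncomputable def trw (T : Submodule ℝ E) (w : E → E) (c : E) (Y : E) : E := w (Y + c) - co T c

variable {T : Submodule ℝ E} {w : E → E} {ε κ h₁ : ℝ} {c z : E}

lemma trw_trw (T : Submodule ℝ E) (w : E → E) (c : E) : trw T (trw T w c) (-c) = w := by
  funext Y
  unfold trw
  rw [neg_add_cancel_right, map_neg]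
  abel

lemma trw_trw' (T : Submodule ℝ E) (w : E → E) (c : E) : trw T (trw T w (-c)) c = w := by
  have := trw_trw T w (-c)
  rwa [neg_neg] at this

lemma fderiv_trw (w : E → E) (c Y : E) : fderiv ℝ (trw T w c) Y = fderiv ℝ w (Y + c) := by
  unfold trw
  rw [fderiv_sub_const, fderiv_comp_add_right]

lemma fderiv_trw' (w : E → E) (c : E) :
    fderiv ℝ (trw T w c) = fun Y => fderiv ℝ w (Y + c) := funext fun Y => fderiv_trw w c Y

lemma D2_trw (w : E → E) (c Y : E) : D2 (trw T w c) Y = D2 w (Y + c) := by
  unfold D2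
  rw [fderiv_trw', fderiv_comp_add_right (f := fderiv ℝ w)]

/-- `Y - p c + c` and `Y` have the same base point -/
lemma star_shift (T : Submodule ℝ E) (c Y : E) :
    T.starProjection (Y - T.starProjection c + c) = T.starProjection Y := by
  rw [map_add, map_sub, star_self]; abel

lemma w_shift (hw : Ref T w ε κ) (c Y : E) : w (Y - T.starProjection c + c) = w Y := by
  rw [← hw.base, star_shift, hw.base]

lemma fderiv_shift (hw : Ref T w ε κ) (c Y : E) :
    fderiv ℝ w (Y - T.starProjection c + c) = fderiv ℝ w Y := by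
  rw [← hw.fderiv_base, star_shift, hw.fderiv_base]

lemma D2_shift (hw : Ref T w ε κ) (c Y : E) : D2 w (Y - T.starProjection c + c) = D2 w Y := by
  rw [← hw.D2_base, star_shift, hw.D2_base]

lemma trw_at (hw : Ref T w ε κ) (c Y : E) : trw T w c (Y - T.starProjection c) = w Y - co T c := by
  unfold trw; rw [w_shift hw]

lemma fderiv_trw_at (hw : Ref T w ε κ) (c Y : E) :
    fderiv ℝ (trw T w c) (Y - T.starProjection c) = fderiv ℝ w Y := by
  rw [fderiv_trw, fderiv_shift hw]

lemma D2_trw_at (hw : Ref T w ε κ) (c Y : E) :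
    D2 (trw T w c) (Y - T.starProjection c) = D2 w Y := by
  rw [D2_trw, D2_shift hw]

/-- the translated reference graph -/
theorem ref_trw (hw : Ref T w ε κ) (c : E) : Ref T (trw T w c) ε κ where
  smooth := (hw.smooth.comp (contDiff_id.add contDiff_const)).sub contDiff_const
  base := fun y => by
    unfold trw
    have h1 : w (T.starProjection y + c) = w (y + c) := by
      rw [← hw.base, ← hw.base (y + c), map_add, map_add, star_self]
    rw [h1]
  perp := fun y => by
    unfold trw
    rw [map_sub, hw.perp, star_co, sub_zero]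
  knn := hw.knn
  slope := fun y => by rw [fderiv_trw]; exact hw.slope _
  bound := fun k h2 h6 y => by
    have h1 : iteratedFDeriv ℝ k (trw T w c) y = iteratedFDeriv ℝ k w (y + c) := by
      obtain ⟨j, rfl⟩ : ∃ j, k = j + 1 := ⟨k - 1, by omega⟩
      have h3 : iteratedFDeriv ℝ (j + 1) (trw T w c) y =
          iteratedFDeriv ℝ (j + 1) (fun Y => w (Y + c)) y := by
        have hs : ContDiff ℝ (j + 1 : ℕ) (fun Y => w (Y + c)) :=
          (hw.smooth.comp (contDiff_id.add contDiff_const)).of_le (by exact_mod_cast le_top)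
        have h4 : trw T w c = (fun Y => w (Y + c)) - fun _ => co T c := rfl
        rw [h4, iteratedFDeriv_sub_apply hs.contDiffAt contDiff_const.contDiffAt,
          iteratedFDeriv_const_of_ne (by omega : j + 1 ≠ 0)]
        simp
      rw [h3, iteratedFDeriv_comp_add_right]
    rw [h1]
    exact hw.bound k h2 h6 _

theorem adm_trw (H : Adm T w ε κ h₁) (c : E) : Adm T (trw T w c) ε κ h₁ :=
  ⟨ref_trw H.ref c, H.hpos, H.hε, H.hκ⟩

/-! ### pointwise objects -/

lemma bx_shift (T : Submodule ℝ E) (z c Y : E) :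
    bx T (z - c) (Y - T.starProjection c) = bx T z Y := by
  unfold bx
  rw [map_sub, map_sub, map_sub, map_sub, star_self]; abel

lemma co_shift (T : Submodule ℝ E) (c Y : E) : co T (Y - T.starProjection c) = co T Y := by
  rw [map_sub, co_star, sub_zero]

lemma D0_shift (hw : Ref T w ε κ) (c Y : E) :
    D0 (trw T w c) (Y - T.starProjection c) = D0 w Y := by
  unfold D0; rw [fderiv_trw_at hw]

lemma J0_shift (hw : Ref T w ε κ) (c Y : E) :
    J0 (trw T w c) (Y - T.starProjection c) = J0 w Y := by
  unfold J0; rw [D0_shift hw]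

lemma planeOf_shift (hw : Ref T w ε κ) (c Y : E) :
    planeOf T (trw T w c) (Y - T.starProjection c) = planeOf T w Y := by
  unfold planeOf; rw [fderiv_trw_at hw]

lemma PS_shift (hw : Ref T w ε κ) (c Y : E) :
    PS T (trw T w c) (Y - T.starProjection c) = PS T w Y := by
  unfold PS; simp only [planeOf_shift hw]

lemma XX_shift (z c Y : E) :
    XX T (trw T w c) (z - c) (Y - T.starProjection c) = XX T w z Y := bx_shift T z c Y

lemma aX_shift (z c Y : E) :
    aX T (trw T w c) (z - c) (Y - T.starProjection c) = aX T w z Y := by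
  unfold aX; rw [XX_shift]

lemma sg_shift (hw : Ref T w ε κ) (z c Y : E) :
    sg T (trw T w c) (z - c) (Y - T.starProjection c) = sg T w z Y := by
  unfold sg; rw [PS_shift hw, XX_shift]

lemma nX_shift (hw : Ref T w ε κ) (z c Y : E) :
    nX T (trw T w c) (z - c) (Y - T.starProjection c) = nX T w z Y := by
  unfold nX; rw [sg_shift hw, XX_shift]

lemma vp_shift (hw : Ref T w ε κ) (z c Y : E) :
    vp T (trw T w c) (z - c) (Y - T.starProjection c) = vp T w z Y := by
  unfold vp; rw [nX_shift hw, XX_shift]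

lemma om_shift (hw : Ref T w ε κ) (c Y : E) :
    om T (trw T w c) (Y - T.starProjection c) = om T w Y := by
  unfold om; rw [fderiv_trw_at hw, co_shift]

/-- the Fermi maps -/
lemma Psi_shift (hw : Ref T w ε κ) (c Y : E) :
    Psi T (trw T w c) h₁ (Y - T.starProjection c) = Psi T w h₁ Y - c := by
  unfold Psi
  rw [trw_at hw, fderiv_trw_at hw, co_shift]
  have : c = T.starProjection c + co T c := (star_add_co T c).symm
  conv_rhs => rw [this]
  abel

lemma Psi_trw (hw : Ref T w ε κ) (c Y : E) :
    Psi T (trw T w c) h₁ Y = Psi T w h₁ (Y + T.starProjection c) - c := by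
  have := Psi_shift (h₁ := h₁) hw c (Y + T.starProjection c)
  rwa [add_sub_cancel_right] at this

lemma fderiv_Psi_shift (hw : Ref T w ε κ) (c Y : E) :
    fderiv ℝ (Psi T (trw T w c) h₁) (Y - T.starProjection c) = fderiv ℝ (Psi T w h₁) Y := by
  have h1 : Psi T (trw T w c) h₁ = fun Y => Psi T w h₁ (Y + T.starProjection c) - c :=
    funext fun Y => Psi_trw hw c Y
  rw [h1, fderiv_sub_const, fderiv_comp_add_right, sub_add_cancel]

lemma Jm_shift (hw : Ref T w ε κ) (c Y : E) :
    Jm T (trw T w c) h₁ (Y - T.starProjection c) = Jm T w h₁ Y := by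
  unfold Jm; rw [fderiv_Psi_shift hw]

lemma PsiInv_shift (H : Adm T w ε κ h₁) (c y : E) :
    PsiInv T (trw T w c) h₁ (y - c) = PsiInv T w h₁ y - T.starProjection c := by
  have h1 := (adm_trw H c).PsiInv_Psi (PsiInv T w h₁ y - T.starProjection c)
  rwa [Psi_shift H.ref, H.Psi_PsiInv] at h1

lemma rh_shift (hw : Ref T w ε κ) (z c Y : E) :
    rh T (trw T w c) h₁ (z - c) (Y - T.starProjection c) = rh T w h₁ z Y := by
  unfold rh cR; rw [Jm_shift hw, bx_shift]

lemma areaEl_shift (hw : Ref T w ε κ) (c Y : E) :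
    areaEl (trw T w c) (Y - T.starProjection c) = areaEl w Y := by
  unfold areaEl; rw [fderiv_trw_at hw]

lemma fderiv_om_shift (hw : Ref T w ε κ) (c Y : E) :
    fderiv ℝ (om T (trw T w c)) (Y - T.starProjection c) = fderiv ℝ (om T w) Y := by
  have h1 : om T (trw T w c) = fun Y => om T w (Y + T.starProjection c) := by
    funext Y
    have := om_shift hw c (Y + T.starProjection c)
    rwa [add_sub_cancel_right] at this
  rw [h1, fderiv_comp_add_right, sub_add_cancel]

lemma lap_shift (hw : Ref T w ε κ) (c Y : E) :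
    lap (trw T w c) (PS T (trw T w c) (Y - T.starProjection c)) (Y - T.starProjection c) =
      lap w (PS T w Y) Y := by
  unfold lap
  have h1 := D2_trw_at hw c Y
  unfold D2 at h1
  rw [h1, PS_shift hw]

/-- minimality -/
lemma minimal_trw (hw : Ref T w ε κ) {G : Set E} (h : MinimalOver T w G) (c : E) :
    MinimalOver T (trw T w c) {x | x + T.starProjection c ∈ G} := by
  intro y hy
  have h1 := lap_shift hw c (y + T.starProjection c)
  rw [add_sub_cancel_right] at h1
  rw [h1]
  refine h _ ?_
  rw [map_add, star_self]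
  exact hy

/-! ### measures -/

variable [MeasurableSpace E] [BorelSpace E]

variable {m Q : ℕ} {G : Set E} {h : ℝ} {ν : Measure E} {P : E → E →L[ℝ] E} {k k' K ψ : ℝ → ℝ}
  {t : ℝ}

/-- the measure in the Fermi coordinates of the translated graph -/
lemma fmeas_shift (H : Adm T w ε κ h₁) (c : E) (ν : Measure E) :
    fmeas T (trw T w c) h₁ (ν.map fun y => y - c) =
      (fmeas T w h₁ ν).map fun Y => Y - T.starProjection c := by
  unfold fmeas
  have hm : Measurable fun Y : E => Y - T.starProjection c := by fun_prop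
  have hm2 : Measurable fun Y : E => Y - c := by fun_prop
  rw [Measure.map_map (adm_trw H c).aem hm2, Measure.map_map hm H.aem]
  congr 1
  funext y
  exact PsiInv_shift H c y

lemma fP_shift (hw : Ref T w ε κ) (c : E) (P : E → E →L[ℝ] E) (Y : E) :
    fP T (trw T w c) h₁ (fun y => P (y + c)) (Y - T.starProjection c) = fP T w h₁ P Y := by
  unfold fP
  rw [Psi_shift hw]
  show P (Psi T w h₁ Y - c + c) = _
  rw [sub_add_cancel]

lemma embp (c : E) : MeasurableEmbedding (fun Y : E => Y - c) :=
  (MeasurableEquiv.subRight c).measurableEmbedding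

/-- kernel integrals -/
lemma kI_shift (z c : E) (ν : Measure E) (ψ : ℝ → ℝ) {f f' : E → ℝ}
    (hf : ∀ Y, f' (Y - T.starProjection c) = f Y) (t : ℝ) :
    kI T (trw T w c) (z - c) (ν.map fun Y => Y - T.starProjection c) ψ f' t =
      kI T w z ν ψ f t := by
  unfold kI
  rw [(embp _).integral_map]
  refine integral_congr_ae (Eventually.of_forall fun Y => ?_)
  simp only [aX_shift, hf]

section functionals

variable (H : Adm T w ε κ h₁)

include H

theorem HF_shift (z c : E) (ν : Measure E) (k : ℝ → ℝ) (t : ℝ) :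
    HF m T (trw T w c) (z - c) k (fmeas T (trw T w c) h₁ (ν.map fun y => y - c)) t =
      HF m T w z k (fmeas T w h₁ ν) t := by
  unfold HF
  rw [fmeas_shift H, kI_shift z c _ k (f := fun Y => vp T w z Y * ‖om T w Y‖ ^ 2) fun Y => by
    rw [vp_shift H.ref, om_shift H.ref]]

theorem MF_shift (z c : E) (ν : Measure E) (K : ℝ → ℝ) (t : ℝ) :
    MF m T (trw T w c) (z - c) K (fmeas T (trw T w c) h₁ (ν.map fun y => y - c)) t =
      MF m T w z K (fmeas T w h₁ ν) t := by
  unfold MF
  rw [fmeas_shift H, kI_shift z c _ K (f := fun _ => (1:ℝ)) fun Y => rfl]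

theorem bF_shift (z c : E) (ν : Measure E) (P : E → E →L[ℝ] E) (k : ℝ → ℝ) (t : ℝ) :
    bF m T (trw T w c) h₁ (z - c) k (fP T (trw T w c) h₁ fun y => P (y + c))
        (fmeas T (trw T w c) h₁ (ν.map fun y => y - c)) t =
      bF m T w h₁ z k (fP T w h₁ P) (fmeas T w h₁ ν) t := by
  unfold bF
  rw [fmeas_shift H, kI_shift z c _ k
    (f := fun Y => (vp T w z Y)⁻¹ *
      ‖rh T w h₁ z Y - (fP T w h₁ P) Y (rh T w h₁ z Y)‖ ^ 2) fun Y => by
      rw [vp_shift H.ref, rh_shift H.ref, fP_shift H.ref]]

theorem jF_shift (z c : E) (ν : Measure E) (P : E → E →L[ℝ] E) (K : ℝ → ℝ) (t : ℝ) :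
    jF m T (trw T w c) h₁ (z - c) K (fP T (trw T w c) h₁ fun y => P (y + c))
        (fmeas T (trw T w c) h₁ (ν.map fun y => y - c)) t =
      jF m T w h₁ z K (fP T w h₁ P) (fmeas T w h₁ ν) t := by
  unfold jF
  rw [fmeas_shift H, kI_shift z c _ K (f := trJ T w h₁ (fP T w h₁ P) (om T w)) fun Y => by
    unfold trJ
    rw [fderiv_om_shift H.ref, Jm_shift H.ref, fP_shift H.ref]]

theorem gF_shift (z c : E) (ν : Measure E) (P : E → E →L[ℝ] E) (K : ℝ → ℝ) (t : ℝ) :
    gF m T (trw T w c) (z - c) K (fP T (trw T w c) h₁ fun y => P (y + c))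
        (fmeas T (trw T w c) h₁ (ν.map fun y => y - c)) t =
      gF m T w z K (fP T w h₁ P) (fmeas T w h₁ ν) t := by
  unfold gF
  rw [fmeas_shift H, kI_shift z c _ K (f := eP T w (fP T w h₁ P)) fun Y => by
    unfold eP eS
    rw [planeOf_shift H.ref, fP_shift H.ref]]

omit H in
/-- translation invariance of the measure on the plane -/
lemma map_plane (c : E) (hc : c ∈ T) :
    ((μH[m] : Measure E).restrict (T : Set E)).map (fun x => x - c) =
      (μH[m] : Measure E).restrict (T : Set E) := by
  have hTm : MeasurableSet (T : Set E) := T.closed_of_finiteDimensional.measurableSet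
  ext A hA
  rw [(embp c).map_apply, Measure.restrict_apply ((embp c).measurable hA),
    Measure.restrict_apply hA]
  have h1 : (fun x => x - c) ⁻¹' A ∩ (T : Set E) = (fun x => x - c) ⁻¹' (A ∩ (T : Set E)) := by
    ext x
    constructor
    · rintro ⟨h1, h2⟩
      exact ⟨h1, T.sub_mem h2 hc⟩
    · rintro ⟨h1, h2⟩
      refine ⟨h1, ?_⟩
      have := T.add_mem h2 hc
      simpa using this
  rw [h1]
  have h3 := (Isometry.of_dist_eq fun y z => by simp [dist_eq_norm] :
    Isometry (fun y : E => y - c)).hausdorffMeasure_preimage (d := (m:ℝ))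
    (Or.inl (Nat.cast_nonneg m)) (A ∩ (T : Set E))
  rw [h3, inter_eq_left.2]
  intro y _
  exact ⟨y + c, by simp⟩

theorem MSf_shift (z c : E) (K : ℝ → ℝ) (t : ℝ) :
    MSf m T (trw T w c) (z - c) K t = MSf m T w z K t := by
  unfold MSf
  congr 1
  rw [← map_plane (m := m) (T := T) (T.starProjection c) (T.starProjection_apply_mem c),
    (embp _).integral_map]
  conv_rhs => rw [map_plane (m := m) (T := T) (T.starProjection c) (T.starProjection_apply_mem c)]
  refine integral_congr_ae (Eventually.of_forall fun x => ?_)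
  simp only [aX_shift, areaEl_shift H.ref]

theorem aF_shift (z c : E) (ν : Measure E) (K : ℝ → ℝ) (t : ℝ) :
    aF m Q T (trw T w c) (z - c) K (fmeas T (trw T w c) h₁ (ν.map fun y => y - c)) t =
      aF m Q T w z K (fmeas T w h₁ ν) t := by
  unfold aF
  rw [MF_shift H, MSf_shift H]

theorem pinF_shift (z c : E) (ν : Measure E) (P : E → E →L[ℝ] E) (k K : ℝ → ℝ) (N t : ℝ) :
    pinF m T (trw T w c) h₁ (z - c) k K (fP T (trw T w c) h₁ fun y => P (y + c))
        (fmeas T (trw T w c) h₁ (ν.map fun y => y - c)) N t =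
      pinF m T w h₁ z k K (fP T w h₁ P) (fmeas T w h₁ ν) N t := by
  unfold pinF
  rw [bF_shift H, jF_shift H, HF_shift H]

end functionals

/-- the cylinder in Fermi coordinates -/
theorem cylF_shift (hw : Ref T w ε κ) (hC : CylF m T w h₁ G h ν P) (c : E) :
    CylF m T (trw T w c) h₁ {x | x + T.starProjection c ∈ G} h
      (ν.map fun Y => Y - T.starProjection c) (fun Y => P (Y + T.starProjection c)) := by
  have hfin := hC.fin
  refine ⟨Measure.isFiniteMeasure_map ν _, ?_, ?_, hC.dimT, ?_, ?_, hC.lt, ?_⟩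
  · rw [(embp _).aestronglyMeasurable_map_iff]
    refine hC.meas.congr (Eventually.of_forall fun Y => ?_)
    simp
  · rw [(embp _).ae_map_iff]
    filter_upwards [hC.proj] with Y hY
    simpa using hY
  · exact hC.isOpen.preimage (by fun_prop : Continuous fun x : E => x + T.starProjection c)
  · rw [(embp _).ae_map_iff]
    filter_upwards [hC.slab] with Y hY hYG
    rw [co_shift]
    refine hY ?_
    rw [map_sub, star_self] at hYG
    simpa using hYG
  · intro Z hZ hZc
    have h1 := hC.stat (fun Y => Z (Y - T.starProjection c)) (hZ.comp (contDiff_id.sub contDiff_const)) ?_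
    · rw [(embp _).integral_map, ← h1]
      refine integral_congr_ae (Eventually.of_forall fun Y => ?_)
      simp only [sub_add_cancel, Jm_shift hw]
      rw [fderiv_comp_sub]
    · obtain ⟨K', hK, hKG, h0⟩ := hZc
      refine ⟨(fun x => x + T.starProjection c) '' K', hK.image (by fun_prop), ?_, fun y hy => ?_⟩
      · rintro _ ⟨x, hx, rfl⟩
        exact hKG hx
      · refine h0 _ fun hc => hy ⟨_, hc, ?_⟩
        simp only [map_sub, star_self, sub_add_cancel]

end Vale.Agent.P214.BTR
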